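import Mathlib
import Vale.Agent.Lib.P162.Defs
import Vale.Agent.Lib.P162.Law
import Vale.Agent.Lib.P162.RDefs
import Vale.Agent.Lib.P162.helper57.Assembly
import Vale.Agent.Lib.P162.helper57.Final
import Vale.Agent.Lib.P162.helper23.ProdTv
import Vale.Agent.Lib.P162.helper43.LumpTail
import Vale.Agent.Lib.P162.helper16.CommNew
import Vale.Agent.Lib.P162.helper34.StepNewFree
import Vale.Agent.Lib.P162.helper96.BmatPow
import Vale.Agent.Lib.P162.helper7.NewBad
import Vale.Agent.Lib.P162.helper81.OffOccTv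
import Vale.Agent.Lib.P162.helper90.DefectContract
import Vale.Agent.Lib.P162.helper5.TvStep

/-!
Thorp shuffle of `2 * h` cards, tracked cards added one at a time.

One block of `3 L` shuffles (`L = ⌈log₂ (2 h)⌉`) brings the law of a new card within
`(16 L j + 1 + 2 j) / (2 h)` (in `l1`) of the uniform law off the `j` old cards, from EVERY
injective start (`defect_block`); this defect contracts by the same factor in every further block
(`defect_pow`, from the pool lemma `defect_contract_of`); adding the cards one at a time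
(`tv_step`) gives the bound `kcard_l1` for `k` tracked cards after `3 r L` shuffles, and
stationarity of the uniform law (`tv_mono`) extends it to every later time (`kcard_r_all`).
-/

namespace Vale.Agent.Lib.P162.H63R

open Finset BigOperators
open Vale.Agent.Lib.P162.H24 (tv_compare)
open Vale.Agent.Lib.P162.H23 (sum_fin_succ_fun)
open Vale.Agent.Lib.P162.H36 (move_injective)
open Vale.Agent.Lib.P162.H95 (stepProb_nonneg stepProb_sum Kmat_pow_support Kmat_pow_nonneg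
  Kmat_pow_sum)
open Vale.Agent.Lib.P162.H57 (Wmat_pow_close tv_mono)
open Vale.Agent.Lib.P162.H6 (law_eq_pow)
open Vale.Agent.Lib.P162.H52 (unif_stationary)
open Vale.Agent.Lib.P162.H43 (lump_tail)
open Vale.Agent.Lib.P162.H16 (comm_new)
open Vale.Agent.Lib.P162.H34 (step_new_free)
open Vale.Agent.Lib.P162.H96 (Bmat_pow Bmat_nonneg Bmat_sum)
open Vale.Agent.Lib.P162.H7 (new_bad_prob)
open Vale.Agent.Lib.P162.H81 (off_occ_tv)
open Vale.Agent.Lib.P162.H90 (defect_contract_of)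
open Vale.Agent.Lib.P162.H5 (tv_step)

theorem tail_inj {α : Type*} {j : ℕ} (z : Fin (j + 1) → α) (hz : Function.Injective z) :
    Function.Injective (Fin.tail z) := by
  intro a b hab
  have h1 : z a.succ = z b.succ := hab
  exact Fin.succ_injective _ (hz h1)

theorem lt_of_inj (h j : ℕ) [NeZero h] (z : Fin (j + 1) → ZMod (2 * h))
    (hz : Function.Injective z) : j < 2 * h := by
  have h1 := Fintype.card_le_of_injective z hz
  rw [Fintype.card_fin, ZMod.card] at h1
  omega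

/-- the free one-card law after `m` steps against the uniform law off `j` occupied positions -/
theorem row_close (h j : ℕ) [NeZero h] (v : Fin j → ZMod (2 * h)) (hv : Function.Injective v)
    (hj : j < 2 * h) (m : ℕ) (p : ZMod (2 * h)) :
    ∑ q : ZMod (2 * h),
        |(Wmat h ^ m) p q - (if ∀ i, q ≠ v i then 1 / ((2 * h : ℝ) - j) else 0)|
      ≤ (2 * h : ℝ) / 2 ^ m + 2 * (j : ℝ) / (2 * h : ℝ) := by
  have hcard : Fintype.card (ZMod (2 * h)) = 2 * h := ZMod.card (2 * h)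
  have h1 : ∑ q : ZMod (2 * h), |(Wmat h ^ m) p q - 1 / (2 * h : ℝ)| ≤ (2 * h : ℝ) / 2 ^ m := by
    calc ∑ q : ZMod (2 * h), |(Wmat h ^ m) p q - 1 / (2 * h : ℝ)|
        ≤ ∑ _q : ZMod (2 * h), (1 / 2 ^ m : ℝ) :=
          Finset.sum_le_sum fun q _ => Wmat_pow_close h m p q
      _ = (2 * h : ℝ) / 2 ^ m := by
          rw [Finset.sum_const, Finset.card_univ, hcard, nsmul_eq_mul]
          push_cast
          ring
  have h2 := off_occ_tv h j v hv hj
  have h3 : ∑ q : ZMod (2 * h),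
        |(Wmat h ^ m) p q - (if ∀ i, q ≠ v i then 1 / ((2 * h : ℝ) - j) else 0)|
      ≤ ∑ q : ZMod (2 * h), (|(Wmat h ^ m) p q - 1 / (2 * h : ℝ)|
          + |1 / (2 * h : ℝ) - (if ∀ i, q ≠ v i then 1 / ((2 * h : ℝ) - j) else 0)|) := by
    apply Finset.sum_le_sum
    intro q _
    have e : (Wmat h ^ m) p q - (if ∀ i, q ≠ v i then 1 / ((2 * h : ℝ) - j) else 0)
        = ((Wmat h ^ m) p q - 1 / (2 * h : ℝ))
          + (1 / (2 * h : ℝ) - (if ∀ i, q ≠ v i then 1 / ((2 * h : ℝ) - j) else 0)) := by ring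
    rw [e]
    exact abs_add_le _ _
  rw [Finset.sum_add_distrib, h2] at h3
  linarith

/-- Chapman-Kolmogorov for the old cards, through the `(j+1)`-card chain at time `t0` -/
theorem tail_chapman (h j : ℕ) [NeZero h] (z : Fin (j + 1) → ZMod (2 * h)) (t0 m : ℕ)
    (v : Fin j → ZMod (2 * h)) :
    (Kmat h j ^ (t0 + m)) (Fin.tail z) v
      = ∑ u, (Kmat h (j + 1) ^ t0) z u * (Kmat h j ^ m) (Fin.tail u) v := by
  have e1 := sum_fin_succ_fun (α := ZMod (2 * h)) j
    (fun u => (Kmat h (j + 1) ^ t0) z u * (Kmat h j ^ m) (Fin.tail u) v)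
  rw [e1, Finset.sum_comm, pow_add, Matrix.mul_apply]
  apply Finset.sum_congr rfl
  intro w _
  rw [← lump_tail h j t0 z w, Finset.sum_mul]
  apply Finset.sum_congr rfl
  intro q _
  rw [Fin.tail_cons]

/-- the product chain (free new card, old cards as the `j`-card chain) run for `m` steps from the
law of the `(j+1)`-card chain at time `t0` is close to the resampled law at time `t0 + m` -/
theorem free_resamp_close (h j : ℕ) [NeZero h] (z : Fin (j + 1) → ZMod (2 * h))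
    (hz : Function.Injective z) (t0 m : ℕ) :
    ∑ y : Fin (j + 1) → ZMod (2 * h), |∑ u : Fin (j + 1) → ZMod (2 * h), (Kmat h (j + 1) ^ t0) z u
          * ((Wmat h ^ m) (u 0) (y 0) * (Kmat h j ^ m) (Fin.tail u) (Fin.tail y))
        - resamp h j (t0 + m) z y|
      ≤ (2 * h : ℝ) / 2 ^ m + 2 * (j : ℝ) / (2 * h : ℝ) := by
  classical
  have hj : j < 2 * h := lt_of_inj h j z hz
  obtain ⟨bound, hbound⟩ : ∃ b : ℝ, b = (2 * h : ℝ) / 2 ^ m + 2 * (j : ℝ) / (2 * h : ℝ) :=
    ⟨_, rfl⟩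
  rw [← hbound]
  obtain ⟨μ, hμdef⟩ : ∃ μ : (Fin (j + 1) → ZMod (2 * h)) → ℝ,
      ∀ u, μ u = (Kmat h (j + 1) ^ t0) z u := ⟨_, fun _ => rfl⟩
  have hμ : ∀ u, 0 ≤ μ u := fun u => by rw [hμdef]; exact Kmat_pow_nonneg h (j + 1) t0 z u
  have hμ1 : ∑ u, μ u = 1 := by
    rw [Finset.sum_congr rfl (fun u _ => hμdef u)]
    exact Kmat_pow_sum h (j + 1) t0 z
  obtain ⟨c, hc⟩ : ∃ c : (Fin (j + 1) → ZMod (2 * h)) → ℝ,
      ∀ y, c y = if ∀ i : Fin j, y 0 ≠ y i.succ then 1 / ((2 * h : ℝ) - j) else 0 :=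
    ⟨_, fun _ => rfl⟩
  have hgoal : ∀ y : Fin (j + 1) → ZMod (2 * h), (∑ u : Fin (j + 1) → ZMod (2 * h), (Kmat h (j + 1) ^ t0) z u
          * ((Wmat h ^ m) (u 0) (y 0) * (Kmat h j ^ m) (Fin.tail u) (Fin.tail y)))
      = ∑ u : Fin (j + 1) → ZMod (2 * h), μ u * ((Wmat h ^ m) (u 0) (y 0) * (Kmat h j ^ m) (Fin.tail u) (Fin.tail y)) := by
    intro y
    apply Finset.sum_congr rfl
    intro u _
    rw [hμdef]
  rw [Finset.sum_congr rfl (fun y _ => by rw [hgoal y])]
  -- the resampled law as a mixture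
  have hres : ∀ y : Fin (j + 1) → ZMod (2 * h), resamp h j (t0 + m) z y
      = ∑ u : Fin (j + 1) → ZMod (2 * h), μ u * ((Kmat h j ^ m) (Fin.tail u) (Fin.tail y) * c y) := by
    intro y
    rw [resamp_apply, tail_chapman h j z t0 m (Fin.tail y), hc y]
    by_cases hy : ∀ i : Fin j, y 0 ≠ y i.succ
    · rw [if_pos hy, if_pos hy, Finset.sum_div]
      apply Finset.sum_congr rfl
      intro u _
      rw [hμdef]
      ring
    · rw [if_neg hy, if_neg hy]
      symm
      apply Finset.sum_eq_zero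
      intro u _
      ring
  have hterm : ∀ y : Fin (j + 1) → ZMod (2 * h),
      |∑ u : Fin (j + 1) → ZMod (2 * h), μ u * ((Wmat h ^ m) (u 0) (y 0) * (Kmat h j ^ m) (Fin.tail u) (Fin.tail y))
        - resamp h j (t0 + m) z y|
      ≤ ∑ u : Fin (j + 1) → ZMod (2 * h), μ u * ((Kmat h j ^ m) (Fin.tail u) (Fin.tail y)
          * |(Wmat h ^ m) (u 0) (y 0) - c y|) := by
    intro y
    rw [hres y, ← Finset.sum_sub_distrib]
    refine le_trans (Finset.abs_sum_le_sum_abs _ _) ?_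
    apply Finset.sum_le_sum
    intro u _
    have e : μ u * ((Wmat h ^ m) (u 0) (y 0) * (Kmat h j ^ m) (Fin.tail u) (Fin.tail y))
          - μ u * ((Kmat h j ^ m) (Fin.tail u) (Fin.tail y) * c y)
        = μ u * ((Kmat h j ^ m) (Fin.tail u) (Fin.tail y)
            * ((Wmat h ^ m) (u 0) (y 0) - c y)) := by ring
    rw [e, abs_mul, abs_mul, abs_of_nonneg (hμ u),
      abs_of_nonneg (Kmat_pow_nonneg h j m (Fin.tail u) (Fin.tail y))]
  have hrow : ∀ u : Fin (j + 1) → ZMod (2 * h), μ u * ∑ y : Fin (j + 1) → ZMod (2 * h), ((Kmat h j ^ m) (Fin.tail u) (Fin.tail y)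
          * |(Wmat h ^ m) (u 0) (y 0) - c y|) ≤ μ u * bound := by
    intro u
    by_cases hu0 : μ u = 0
    · rw [hu0, zero_mul, zero_mul]
    · have hu0' : (Kmat h (j + 1) ^ t0) z u ≠ 0 := by rw [← hμdef]; exact hu0
      have hu : Function.Injective u :=
        Kmat_pow_support h (j + 1) (move_injective h) z hz t0 u hu0'
      have htu : Function.Injective (Fin.tail u) := tail_inj u hu
      apply mul_le_mul_of_nonneg_left _ (hμ u)
      have e1 := sum_fin_succ_fun (α := ZMod (2 * h)) j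
        (fun y => (Kmat h j ^ m) (Fin.tail u) (Fin.tail y) * |(Wmat h ^ m) (u 0) (y 0) - c y|)
      rw [e1, Finset.sum_comm]
      have hv : ∀ v : Fin j → ZMod (2 * h),
          ∑ q : ZMod (2 * h), (Kmat h j ^ m) (Fin.tail u)
                (Fin.tail (Fin.cons q v : Fin (j + 1) → ZMod (2 * h)))
              * |(Wmat h ^ m) (u 0) ((Fin.cons q v : Fin (j + 1) → ZMod (2 * h)) 0)
                  - c (Fin.cons q v)|
            ≤ (Kmat h j ^ m) (Fin.tail u) v * bound := by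
        intro v
        have e2 : ∀ q : ZMod (2 * h), (Kmat h j ^ m) (Fin.tail u)
                (Fin.tail (Fin.cons q v : Fin (j + 1) → ZMod (2 * h)))
              * |(Wmat h ^ m) (u 0) ((Fin.cons q v : Fin (j + 1) → ZMod (2 * h)) 0)
                  - c (Fin.cons q v)|
            = (Kmat h j ^ m) (Fin.tail u) v
              * |(Wmat h ^ m) (u 0) q
                  - (if ∀ i, q ≠ v i then 1 / ((2 * h : ℝ) - j) else 0)| := by
          intro q
          rw [Fin.tail_cons, Fin.cons_zero, hc]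
          have e3 : (∀ i : Fin j, (Fin.cons q v : Fin (j + 1) → ZMod (2 * h)) 0
                ≠ (Fin.cons q v : Fin (j + 1) → ZMod (2 * h)) i.succ) ↔ ∀ i, q ≠ v i := by
            constructor
            · intro hh i
              have := hh i
              rwa [Fin.cons_zero, Fin.cons_succ] at this
            · intro hh i
              rw [Fin.cons_zero, Fin.cons_succ]
              exact hh i
          rw [if_congr e3 rfl rfl]
        rw [Finset.sum_congr rfl (fun q _ => e2 q), ← Finset.mul_sum]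
        by_cases hv0 : (Kmat h j ^ m) (Fin.tail u) v = 0
        · rw [hv0, zero_mul, zero_mul]
        · have hvinj := Kmat_pow_support h j (move_injective h) (Fin.tail u) htu m v hv0
          rw [hbound]
          exact mul_le_mul_of_nonneg_left (row_close h j v hvinj hj m (u 0))
            (Kmat_pow_nonneg h j m _ _)
      refine le_trans (Finset.sum_le_sum fun v _ => hv v) ?_
      rw [← Finset.sum_mul, Kmat_pow_sum, one_mul]
  calc ∑ y : Fin (j + 1) → ZMod (2 * h), |∑ u : Fin (j + 1) → ZMod (2 * h), μ u * ((Wmat h ^ m) (u 0) (y 0) * (Kmat h j ^ m) (Fin.tail u) (Fin.tail y))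
        - resamp h j (t0 + m) z y|
      ≤ ∑ y : Fin (j + 1) → ZMod (2 * h), ∑ u : Fin (j + 1) → ZMod (2 * h), μ u * ((Kmat h j ^ m) (Fin.tail u) (Fin.tail y)
          * |(Wmat h ^ m) (u 0) (y 0) - c y|) := Finset.sum_le_sum fun y _ => hterm y
    _ = ∑ u : Fin (j + 1) → ZMod (2 * h), μ u * ∑ y : Fin (j + 1) → ZMod (2 * h), ((Kmat h j ^ m) (Fin.tail u) (Fin.tail y)
          * |(Wmat h ^ m) (u 0) (y 0) - c y|) := by
        rw [Finset.sum_comm]
        apply Finset.sum_congr rfl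
        intro u _
        rw [Finset.mul_sum]
    _ ≤ ∑ u, μ u * bound := Finset.sum_le_sum fun u _ => hrow u
    _ = bound := by rw [← Finset.sum_mul, hμ1, one_mul]

/-- one block of `3 L` shuffles, from any injective start -/
theorem defect_block (h j : ℕ) [NeZero h] (z : Fin (j + 1) → ZMod (2 * h))
    (hz : Function.Injective z) :
    defect h j (3 * Nat.clog 2 (2 * h)) z
      ≤ (16 * (Nat.clog 2 (2 * h) : ℝ) * j + 1 + 2 * j) / (2 * h : ℝ) := by
  classical
  obtain ⟨L, hL⟩ : ∃ L : ℕ, L = Nat.clog 2 (2 * h) := ⟨_, rfl⟩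
  rw [← hL]
  obtain ⟨m0, hm0⟩ : ∃ m0 : ℕ, m0 = Nat.log 2 h := ⟨_, rfl⟩
  have hhpos : 0 < h := NeZero.pos h
  have hh : (0 : ℝ) < h := by exact_mod_cast hhpos
  have hLn : 2 * h ≤ 2 ^ L := by rw [hL]; exact Nat.le_pow_clog (by norm_num) (2 * h)
  have hm0le : 2 ^ m0 ≤ h := by rw [hm0]; exact Nat.pow_log_le_self 2 (by omega)
  have hm0lt : h < 2 ^ (m0 + 1) := by rw [hm0]; exact Nat.lt_pow_succ_log_self (by norm_num) h
  have hm0L : m0 ≤ L := by
    have h1 : 2 ^ m0 ≤ 2 ^ L := le_trans hm0le (le_trans (by omega) hLn)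
    exact (Nat.pow_le_pow_iff_right (by norm_num)).mp h1
  -- the law after the first L shuffles
  obtain ⟨μ, hμdef⟩ : ∃ μ : (Fin (j + 1) → ZMod (2 * h)) → ℝ,
      ∀ u, μ u = (Kmat h (j + 1) ^ L) z u := ⟨_, fun _ => rfl⟩
  have hμ : ∀ u, 0 ≤ μ u := fun u => by rw [hμdef]; exact Kmat_pow_nonneg h (j + 1) L z u
  have hvec : ∀ (i : ℕ) (y : Fin (j + 1) → ZMod (2 * h)),
      (Matrix.vecMul μ (Kmat h (j + 1) ^ i)) y = (Kmat h (j + 1) ^ (L + i)) z y := by
    intro i y
    rw [pow_add, Matrix.mul_apply]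
    show ∑ u, μ u * (Kmat h (j + 1) ^ i) u y = _
    apply Finset.sum_congr rfl
    intro u _
    rw [hμdef]
  have hK0 : ∀ u y, 0 ≤ Kmat h (j + 1) u y := fun u y => stepProb_nonneg h (j + 1) u y
  have hK1 : ∀ u, ∑ y, Kmat h (j + 1) u y = 1 := fun u => stepProb_sum h (j + 1) u
  have hAB : ∀ u, ¬ newBad h j u → Kmat h (j + 1) u = Bmat h j u := by
    intro u hu
    funext y
    rw [Bmat_apply]
    exact step_new_free h j u y hu
  -- first term: comparison with the product chain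
  have T1 := tv_compare (Kmat h (j + 1)) (Bmat h j) hK0 hK1 (Bmat_nonneg h j) (Bmat_sum h j)
    (newBad h j) hAB μ hμ (2 * L)
  have hbad : ∀ i ∈ range (2 * L),
      ∑ u ∈ univ.filter (newBad h j), (Matrix.vecMul μ (Kmat h (j + 1) ^ i)) u
        ≤ (j : ℝ) / 2 ^ m0 := by
    intro i _
    rw [Finset.sum_congr rfl (fun u _ => hvec i u)]
    exact new_bad_prob h j z hz m0 (L + i) hm0le (by omega)
  have T1' : ∑ y, |(Kmat h (j + 1) ^ (L + 2 * L)) z y
        - (Matrix.vecMul μ (Bmat h j ^ (2 * L))) y|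
      ≤ 2 * ((2 * L : ℕ) * ((j : ℝ) / 2 ^ m0)) := by
    have T1a : ∑ y, |(Kmat h (j + 1) ^ (L + 2 * L)) z y
          - (Matrix.vecMul μ (Bmat h j ^ (2 * L))) y|
        = ∑ y, |(Matrix.vecMul μ (Kmat h (j + 1) ^ (2 * L))) y
            - (Matrix.vecMul μ (Bmat h j ^ (2 * L))) y| := by
      apply Finset.sum_congr rfl
      intro y _
      rw [hvec (2 * L) y]
    rw [T1a]
    refine le_trans T1 ?_
    apply mul_le_mul_of_nonneg_left _ (by norm_num)
    calc ∑ i ∈ range (2 * L), ∑ u ∈ univ.filter (newBad h j),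
          (Matrix.vecMul μ (Kmat h (j + 1) ^ i)) u
        ≤ ∑ _i ∈ range (2 * L), (j : ℝ) / 2 ^ m0 := Finset.sum_le_sum hbad
      _ = (2 * L : ℕ) * ((j : ℝ) / 2 ^ m0) := by
          rw [Finset.sum_const, Finset.card_range, nsmul_eq_mul]
  -- second term: the product chain against the resampled law
  have hB : ∀ y : Fin (j + 1) → ZMod (2 * h), (Matrix.vecMul μ (Bmat h j ^ (2 * L))) y
      = ∑ u : Fin (j + 1) → ZMod (2 * h), (Kmat h (j + 1) ^ L) z u
          * ((Wmat h ^ (2 * L)) (u 0) (y 0) * (Kmat h j ^ (2 * L)) (Fin.tail u) (Fin.tail y)) := by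
    intro y
    show ∑ u, μ u * (Bmat h j ^ (2 * L)) u y = _
    apply Finset.sum_congr rfl
    intro u _
    rw [hμdef, Bmat_pow]
  have T2 := free_resamp_close h j z hz L (2 * L)
  have T2' : ∑ y, |(Matrix.vecMul μ (Bmat h j ^ (2 * L))) y - resamp h j (L + 2 * L) z y|
      ≤ (2 * h : ℝ) / 2 ^ (2 * L) + 2 * (j : ℝ) / (2 * h : ℝ) := by
    rw [Finset.sum_congr rfl (fun y _ => by rw [hB y])]
    exact T2
  -- triangle inequality
  have e3 : 3 * L = L + 2 * L := by ring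
  have tri : defect h j (3 * L) z
      ≤ ∑ y, |(Kmat h (j + 1) ^ (L + 2 * L)) z y - (Matrix.vecMul μ (Bmat h j ^ (2 * L))) y|
        + ∑ y, |(Matrix.vecMul μ (Bmat h j ^ (2 * L))) y - resamp h j (L + 2 * L) z y| := by
    rw [defect_apply, e3, ← Finset.sum_add_distrib]
    apply Finset.sum_le_sum
    intro y _
    have e : (Kmat h (j + 1) ^ (L + 2 * L)) z y - resamp h j (L + 2 * L) z y
        = ((Kmat h (j + 1) ^ (L + 2 * L)) z y - (Matrix.vecMul μ (Bmat h j ^ (2 * L))) y)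
          + ((Matrix.vecMul μ (Bmat h j ^ (2 * L))) y - resamp h j (L + 2 * L) z y) := by ring
    rw [e]
    exact abs_add_le _ _
  -- numerics
  have hjn : (0 : ℝ) ≤ j := Nat.cast_nonneg j
  have hLr : (0 : ℝ) ≤ L := Nat.cast_nonneg L
  have hpow0 : (h : ℝ) < 2 * 2 ^ m0 := by
    have : h < 2 * 2 ^ m0 := by rw [← pow_succ']; exact hm0lt
    exact_mod_cast this
  have hpow0' : (0 : ℝ) < 2 ^ m0 := by positivity
  have hpowL : (2 * h : ℝ) ≤ 2 ^ L := by exact_mod_cast hLn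
  have B1 : 2 * ((2 * L : ℕ) * ((j : ℝ) / 2 ^ m0)) ≤ 16 * (L : ℝ) * j / (2 * h : ℝ) := by
    have h1 : (1 : ℝ) / 2 ^ m0 ≤ 4 / (2 * h : ℝ) := by
      rw [div_le_div_iff₀ hpow0' (by positivity)]
      linarith
    have h2 : (j : ℝ) / 2 ^ m0 ≤ (j : ℝ) * (4 / (2 * h : ℝ)) := by
      rw [div_eq_mul_one_div]
      exact mul_le_mul_of_nonneg_left h1 hjn
    push_cast
    have h3 : (0 : ℝ) ≤ 2 * (2 * (L : ℝ)) := by positivity
    calc 2 * (2 * (L : ℝ) * ((j : ℝ) / 2 ^ m0))
        = 2 * (2 * (L : ℝ)) * ((j : ℝ) / 2 ^ m0) := by ring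
      _ ≤ 2 * (2 * (L : ℝ)) * ((j : ℝ) * (4 / (2 * h : ℝ))) :=
          mul_le_mul_of_nonneg_left h2 h3
      _ = 16 * (L : ℝ) * j / (2 * h : ℝ) := by ring
  have B2 : (2 * h : ℝ) / 2 ^ (2 * L) ≤ 1 / (2 * h : ℝ) := by
    have h1 : (2 * h : ℝ) * (2 * h : ℝ) ≤ 2 ^ (2 * L) := by
      rw [pow_mul', sq]
      have h0 : (0 : ℝ) ≤ 2 * h := by positivity
      exact mul_le_mul hpowL hpowL h0 (le_trans h0 hpowL)
    rw [div_le_div_iff₀ (by positivity) (by positivity)]
    linarith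
  have hfin : 16 * (L : ℝ) * j / (2 * h : ℝ) + (1 / (2 * h : ℝ) + 2 * (j : ℝ) / (2 * h : ℝ))
      = (16 * (L : ℝ) * j + 1 + 2 * j) / (2 * h : ℝ) := by ring
  rw [← hfin]
  refine le_trans tri ?_
  exact add_le_add (le_trans T1' B1) (le_trans T2' (by linarith))

/-- `r` blocks -/
theorem defect_pow (h j : ℕ) [NeZero h] (r : ℕ) (hr : 1 ≤ r) (z : Fin (j + 1) → ZMod (2 * h))
    (hz : Function.Injective z) :
    defect h j (3 * r * Nat.clog 2 (2 * h)) z
      ≤ ((16 * (Nat.clog 2 (2 * h) : ℝ) * j + 1 + 2 * j) / (2 * h : ℝ)) ^ r := by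
  have hh : (0 : ℝ) < h := by exact_mod_cast NeZero.pos h
  have hη0 : (0 : ℝ) ≤ (16 * (Nat.clog 2 (2 * h) : ℝ) * j + 1 + 2 * j) / (2 * h : ℝ) := by
    positivity
  induction r with
  | zero => omega
  | succ r ih =>
    rcases Nat.eq_zero_or_pos r with hr0 | hr0
    · subst hr0
      rw [pow_one]
      have e : 3 * (0 + 1) * Nat.clog 2 (2 * h) = 3 * Nat.clog 2 (2 * h) := by ring
      rw [e]
      exact defect_block h j z hz
    · have e : 3 * (r + 1) * Nat.clog 2 (2 * h)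
          = 3 * r * Nat.clog 2 (2 * h) + 3 * Nat.clog 2 (2 * h) := by ring
      rw [e, pow_succ']
      refine le_trans (defect_contract_of h j (lump_tail h j) (comm_new h j)
        (3 * Nat.clog 2 (2 * h)) _
        (fun u hu => defect_block h j u hu) z hz (3 * r * Nat.clog 2 (2 * h))) ?_
      exact mul_le_mul_of_nonneg_left (ih hr0) hη0

/-- the `l1` distance from uniform for `k` tracked cards after `3 r L` shuffles -/
theorem kcard_l1 (h : ℕ) [NeZero h] (r : ℕ) (hr : 1 ≤ r) :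
    ∀ (k : ℕ) (x : Fin k → ZMod (2 * h)), Function.Injective x →
      ∑ y, |(Kmat h k ^ (3 * r * Nat.clog 2 (2 * h))) x y - unifInj h k y|
        ≤ (k : ℝ) * (18 * (k : ℝ) * (Nat.clog 2 (2 * h) : ℝ) / (2 * h : ℝ)) ^ r := by
  have hh : (0 : ℝ) < h := by exact_mod_cast NeZero.pos h
  have hL1 : (1 : ℝ) ≤ (Nat.clog 2 (2 * h) : ℝ) := by
    have : 1 ≤ Nat.clog 2 (2 * h) := Nat.clog_pos (by norm_num) (by have := NeZero.pos h; omega)
    exact_mod_cast this
  intro k
  induction k with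
  | zero =>
    intro x _
    have hsum := Kmat_pow_sum h 0 (3 * r * Nat.clog 2 (2 * h)) x
    have huniv : (Finset.univ : Finset (Fin 0 → ZMod (2 * h))) = {x} := by
      rw [Finset.eq_singleton_iff_unique_mem]
      exact ⟨Finset.mem_univ x, fun y _ => Subsingleton.elim y x⟩
    rw [huniv, Finset.sum_singleton] at hsum ⊢
    have hu : unifInj h 0 x = 1 := by
      unfold unifInj
      rw [if_pos (Function.injective_of_subsingleton _), Nat.descFactorial_zero]
      norm_num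
    rw [hu, hsum]
    simp
  | succ j ih =>
    intro x hx
    have htx : Function.Injective (Fin.tail x) := tail_inj x hx
    have h1 := tv_step h j (3 * r * Nat.clog 2 (2 * h)) x hx
    have h2 := defect_pow h j r hr x hx
    have h3 := ih (Fin.tail x) htx
    have hj0 : (0 : ℝ) ≤ j := Nat.cast_nonneg j
    have hη : (16 * (Nat.clog 2 (2 * h) : ℝ) * j + 1 + 2 * j) / (2 * h : ℝ)
        ≤ 18 * ((j + 1 : ℕ) : ℝ) * (Nat.clog 2 (2 * h) : ℝ) / (2 * h : ℝ) := by
      apply div_le_div_of_nonneg_right _ (by positivity)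
      push_cast
      nlinarith
    have hη0 : (0 : ℝ) ≤ (16 * (Nat.clog 2 (2 * h) : ℝ) * j + 1 + 2 * j) / (2 * h : ℝ) := by
      positivity
    have h4 : ((16 * (Nat.clog 2 (2 * h) : ℝ) * j + 1 + 2 * j) / (2 * h : ℝ)) ^ r
        ≤ (18 * ((j + 1 : ℕ) : ℝ) * (Nat.clog 2 (2 * h) : ℝ) / (2 * h : ℝ)) ^ r :=
      pow_le_pow_left₀ hη0 hη r
    have hmono : 18 * (j : ℝ) * (Nat.clog 2 (2 * h) : ℝ) / (2 * h : ℝ)
        ≤ 18 * ((j + 1 : ℕ) : ℝ) * (Nat.clog 2 (2 * h) : ℝ) / (2 * h : ℝ) := by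
      apply div_le_div_of_nonneg_right _ (by positivity)
      push_cast
      nlinarith
    have h5 : (18 * (j : ℝ) * (Nat.clog 2 (2 * h) : ℝ) / (2 * h : ℝ)) ^ r
        ≤ (18 * ((j + 1 : ℕ) : ℝ) * (Nat.clog 2 (2 * h) : ℝ) / (2 * h : ℝ)) ^ r :=
      pow_le_pow_left₀ (by positivity) hmono r
    have h6 : (j : ℝ) * (18 * (j : ℝ) * (Nat.clog 2 (2 * h) : ℝ) / (2 * h : ℝ)) ^ r
        ≤ (j : ℝ) * (18 * ((j + 1 : ℕ) : ℝ) * (Nat.clog 2 (2 * h) : ℝ) / (2 * h : ℝ)) ^ r :=
      mul_le_mul_of_nonneg_left h5 hj0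
    have h7 : (((j + 1 : ℕ) : ℝ)) * (18 * ((j + 1 : ℕ) : ℝ) * (Nat.clog 2 (2 * h) : ℝ)
          / (2 * h : ℝ)) ^ r
        = (18 * ((j + 1 : ℕ) : ℝ) * (Nat.clog 2 (2 * h) : ℝ) / (2 * h : ℝ)) ^ r
          + (j : ℝ) * (18 * ((j + 1 : ℕ) : ℝ) * (Nat.clog 2 (2 * h) : ℝ) / (2 * h : ℝ)) ^ r := by
      push_cast
      ring
    rw [h7]
    linarith

/-- total variation form -/
theorem kcard_mixing_r (h k r : ℕ) [NeZero h] (hr : 1 ≤ r) (x : Fin k → ZMod (2 * h))
    (hx : Function.Injective x) :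
    (1 / 2 : ℝ) * ∑ y, |(Kmat h k ^ (3 * r * Nat.clog 2 (2 * h))) x y - unifInj h k y|
      ≤ (k : ℝ) / 2 * (18 * (k : ℝ) * (Nat.clog 2 (2 * h) : ℝ) / (2 * h : ℝ)) ^ r := by
  have h1 := kcard_l1 h r hr k x hx
  linarith

/-- For every even deck size `2 * h`, every `k`, every `r ≥ 1` and every
`T ≥ 3 r ⌈log₂ (2 h)⌉`: after `T` Thorp shuffles the joint law of the positions of `k` cards that
start in distinct positions is within total variation distance
`(k / 2) (18 k ⌈log₂ (2 h)⌉ / (2 h)) ^ r` of the uniform law on `k`-tuples of distinct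
positions. -/
theorem kcard_r_all (h k r : ℕ) [NeZero h] (hr : 1 ≤ r) (x : Fin k → ZMod (2 * h))
    (hx : Function.Injective x) (T : ℕ) (hT : 3 * r * Nat.clog 2 (2 * h) ≤ T) :
    (1 / 2 : ℝ) * ∑ y, |trackedLaw h k T x y - unifInj h k y|
      ≤ (k : ℝ) / 2 * (18 * (k : ℝ) * (Nat.clog 2 (2 * h) : ℝ) / (2 * h : ℝ)) ^ r := by
  obtain ⟨t, rfl⟩ := Nat.exists_eq_add_of_le hT
  have h1 : ∑ y, |trackedLaw h k (3 * r * Nat.clog 2 (2 * h) + t) x y - unifInj h k y|
      ≤ ∑ y, |(Kmat h k ^ (3 * r * Nat.clog 2 (2 * h))) x y - unifInj h k y| := by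
    have e : ∀ y, trackedLaw h k (3 * r * Nat.clog 2 (2 * h) + t) x y
        = (Kmat h k ^ (3 * r * Nat.clog 2 (2 * h) + t)) x y := fun y => law_eq_pow h k _ x y
    rw [Finset.sum_congr rfl (fun y _ => by rw [e y])]
    exact tv_mono (Kmat h k) (fun z y => stepProb_nonneg h k z y) (fun z => stepProb_sum h k z)
      (unifInj h k) (unif_stationary h k) x _ t
  exact le_trans (mul_le_mul_of_nonneg_left h1 (by norm_num)) (kcard_mixing_r h k r hr x hx)

end Vale.Agent.Lib.P162.H63R
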