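import Mathlib
import Vale.Agent.Lib.P162.Defs

/-!
# P162, pool job F (second copy by helper63)

Cards with pairwise distinct coins move independently: off the bad set the `k`-card kernel of
one Thorp shuffle is the product kernel.
-/

namespace Vale.Agent.Lib.P162.H63

open Finset BigOperators

/-- A product over `ι` of a function that is constant `d` off the range of an injective
`i : Fin k → ι`. -/
theorem prod_off_range {ι : Type*} [Fintype ι] [DecidableEq ι] {k : ℕ} (i : Fin k → ι)
    (hi : Function.Injective i) (F : ι → ℝ) (d : ℝ)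
    (hF : ∀ ι0, (¬ ∃ j, i j = ι0) → F ι0 = d) :
    ∏ ι0, F ι0 = (∏ j, F (i j)) * d ^ (Fintype.card ι - k) := by
  rw [← Finset.prod_mul_prod_compl (univ.image i)]
  congr 1
  · rw [Finset.prod_image (fun a _ b _ hab => hi hab)]
  · have hc : ∀ ι0 ∈ (univ.image i)ᶜ, F ι0 = d := by
      intro ι0 h0
      apply hF
      rintro ⟨j, rfl⟩
      exact (Finset.mem_compl.1 h0) (Finset.mem_image_of_mem i (Finset.mem_univ j))
    rw [Finset.prod_congr rfl hc, Finset.prod_const, Finset.card_compl,
      Finset.card_image_of_injective _ hi, Finset.card_univ, Fintype.card_fin]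

/-- Independence of distinct coordinates of a uniform Boolean vector. -/
theorem sum_prod_coords {ι : Type*} [Fintype ι] [DecidableEq ι] {k : ℕ} (i : Fin k → ι)
    (hi : Function.Injective i) (g : Fin k → Bool → ℝ) :
    ∑ c : ι → Bool, ∏ j, g j (c (i j))
      = (∏ j, (g j true + g j false)) * 2 ^ (Fintype.card ι - k) := by
  set G : ι → Bool → ℝ := fun ι0 b => Function.extend i (fun j => g j b) (fun _ => (1 : ℝ)) ι0
    with hG
  have hGi : ∀ j b, G (i j) b = g j b := by
    intro j b
    simp only [hG]
    exact hi.extend_apply (fun j => g j b) _ j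
  have hGo : ∀ ι0, (¬ ∃ j, i j = ι0) → ∀ b, G ι0 b = 1 := by
    intro ι0 h0 b
    simp only [hG]
    exact Function.extend_apply' _ _ _ h0
  have h1 : ∀ c : ι → Bool, ∏ j, g j (c (i j)) = ∏ ι0, G ι0 (c ι0) := by
    intro c
    rw [prod_off_range i hi (fun ι0 => G ι0 (c ι0)) 1 (fun ι0 h0 => hGo ι0 h0 _), one_pow,
      mul_one]
    exact Finset.prod_congr rfl (fun j _ => (hGi j _).symm)
  rw [Finset.sum_congr rfl (fun c _ => h1 c), ← Fintype.prod_sum]
  rw [prod_off_range i hi (fun ι0 => ∑ b : Bool, G ι0 b) 2 ?_]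
  · congr 1
    refine Finset.prod_congr rfl (fun j _ => ?_)
    rw [Fintype.sum_bool, hGi, hGi]
  · intro ι0 h0
    rw [Fintype.sum_bool, hGo ι0 h0, hGo ι0 h0]
    norm_num

/-- Off the bad set the `k`-card kernel is the product of the one-card kernels. -/
theorem stepProb_free (h k : ℕ) [NeZero h] (z y : Fin k → ZMod (2 * h)) (hz : ¬ bad h k z) :
    stepProb h k z y = Wk h k z y := by
  classical
  set i : Fin k → ZMod h := fun j => (ZMod.cast (z j) : ZMod h) with hi_def
  have hi : Function.Injective i := by
    intro j j' hjj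
    by_contra hne
    exact hz ⟨j, j', hne, hjj⟩
  set g : Fin k → Bool → ℝ := fun j b =>
    if 2 * z j + (if xor (decide (h ≤ (z j).val)) b then 1 else 0) = y j then 1 else 0 with hg
  have hcard : ((univ.filter fun c : ZMod h → Bool => ∀ j, move h c (z j) = y j).card : ℝ)
      = ∑ c : ZMod h → Bool, ∏ j, g j (c (i j)) := by
    rw [Finset.card_filter, Nat.cast_sum]
    refine Finset.sum_congr rfl (fun c _ => ?_)
    have hp : ∏ j, g j (c (i j))
        = ∏ j : Fin k, (if move h c (z j) = y j then (1 : ℝ) else 0) := by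
      refine Finset.prod_congr rfl (fun j _ => ?_)
      rfl
    rw [hp, Finset.prod_ite_zero]
    simp
  have hk : k ≤ h := by
    have := Fintype.card_le_of_injective i hi
    simpa [ZMod.card] using this
  have hgW : ∀ j, g j true + g j false = 2 * Wmat h (z j) (y j) := by
    intro j
    simp only [hg, Wmat]
    cases hd : decide (h ≤ (z j).val) <;> simp [eq_comm] <;> split_ifs <;> norm_num
  unfold stepProb Wk
  rw [hcard, sum_prod_coords i hi g, ZMod.card, Finset.prod_congr rfl (fun j _ => hgW j),
    Finset.prod_mul_distrib, Finset.prod_const, Finset.card_univ, Fintype.card_fin]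
  have h2 : (2 : ℝ) ^ h = 2 ^ k * 2 ^ (h - k) := by
    rw [← pow_add]
    congr 1
    omega
  rw [h2]
  have hpos1 : (0 : ℝ) < 2 ^ k := by positivity
  have hpos2 : (0 : ℝ) < 2 ^ (h - k) := by positivity
  field_simp

end Vale.Agent.Lib.P162.H63
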