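import Mathlib
import Vale.Agent.Lib.P162.Defs
import Vale.Agent.Lib.P162.Law
import Vale.Agent.Lib.P162.RDefs
import Vale.Agent.Lib.P162.helper63.RMain

/-!
Thorp shuffle of `2 * h` cards: the probability that the first two of `j + 2` tracked cards sit
in partner positions (positions `p` and `p + h`, which share a coin) after `s` shuffles.
It vanishes right after a partner time (`pp_gap`), is at most `2 ^ (-m)` from any start
(`pp_upper`), and is within `2592 L ^ 2 / (2 h) ^ 2` of `1 / (2 h - 1)` after `6 L` shuffles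
(`pp_mix`), `L = ⌈log₂ (2 h)⌉`.
-/

namespace Vale.Agent.Lib.P162.H63CV

open Finset BigOperators

theorem fin_zero_ne_one (j : ℕ) : (0 : Fin (j + 2)) ≠ 1 := by
  intro h'
  have h2 := congrArg Fin.val h'
  rw [Fin.val_zero, Fin.val_one] at h2
  exact Nat.zero_ne_one h2

theorem pair_ext {α : Type*} (a b : α) (w : Fin 2 → α) (h0 : a = w 0) (h1 : b = w 1) :
    ![a, b] = w := by
  funext i
  fin_cases i
  · exact h0
  · exact h1

theorem pair_injective {α : Type*} (a b : α) (hab : a ≠ b) : Function.Injective ![a, b] := by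
  intro i i' hii
  fin_cases i <;> fin_cases i'
  · rfl
  · exact absurd hii hab
  · exact absurd hii.symm hab
  · rfl

/-- Lumping: the partner event of the first two cards only depends on the two-card chain. -/
theorem lump_partner (h j : ℕ) [NeZero h] (u : Fin (j + 2) → ZMod (2 * h)) (s : ℕ) :
    ∑ y ∈ univ.filter (fun y : Fin (j + 2) → ZMod (2 * h) => y 1 = y 0 + (h : ZMod (2 * h))),
        (Kmat h (j + 2) ^ s) u y
      = ∑ w ∈ univ.filter (fun w : Fin 2 → ZMod (2 * h) => w 1 = w 0 + (h : ZMod (2 * h))),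
        (Kmat h 2 ^ s) ![u 0, u 1] w := by
  classical
  have hmaps : ∀ y ∈ univ.filter
      (fun y : Fin (j + 2) → ZMod (2 * h) => y 1 = y 0 + (h : ZMod (2 * h))),
      (fun y : Fin (j + 2) → ZMod (2 * h) => ![y 0, y 1]) y ∈ univ.filter
        (fun w : Fin 2 → ZMod (2 * h) => w 1 = w 0 + (h : ZMod (2 * h))) := by
    intro y hy
    rw [mem_filter] at hy ⊢
    exact ⟨mem_univ _, hy.2⟩
  rw [← Finset.sum_fiberwise_of_maps_to hmaps]
  refine Finset.sum_congr rfl fun w hw => ?_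
  rw [← H5.lump_pair h (j + 2) u 0 1 (fin_zero_ne_one j) s w]
  refine Finset.sum_congr ?_ fun _ _ => rfl
  ext y
  rw [mem_filter] at hw
  rw [mem_filter, mem_filter, mem_filter]
  constructor
  · rintro ⟨⟨_, _⟩, hyw⟩
    refine ⟨mem_univ _, ?_, ?_⟩
    · exact congrFun hyw 0
    · exact congrFun hyw 1
  · rintro ⟨_, h0, h1⟩
    refine ⟨⟨mem_univ _, ?_⟩, pair_ext _ _ w h0 h1⟩
    rw [h0, h1]
    exact hw.2

theorem pp_gap (h j : ℕ) [NeZero h] (u : Fin (j + 2) → ZMod (2 * h))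
    (hu : u 1 = u 0 + (h : ZMod (2 * h))) (s : ℕ) (hs1 : 1 ≤ s) (hs : 2 ^ s ≤ h) :
    ∑ y ∈ univ.filter (fun y : Fin (j + 2) → ZMod (2 * h) => y 1 = y 0 + (h : ZMod (2 * h))),
      (Kmat h (j + 2) ^ s) u y = 0 := by
  rw [lump_partner]
  refine Finset.sum_eq_zero fun w hw => ?_
  rw [mem_filter] at hw
  exact H61.partner_gap h s hs1 hs ![u 0, u 1] w hu hw.2

theorem pp_upper (h j : ℕ) [NeZero h] (u : Fin (j + 2) → ZMod (2 * h)) (hu : u 0 ≠ u 1)
    (m s : ℕ) (hm : 2 ^ m ≤ h) (hs : m ≤ s) :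
    ∑ y ∈ univ.filter (fun y : Fin (j + 2) → ZMod (2 * h) => y 1 = y 0 + (h : ZMod (2 * h))),
      (Kmat h (j + 2) ^ s) u y ≤ 1 / 2 ^ m := by
  rw [lump_partner]
  exact H57.pair_partner h ![u 0, u 1] hu m s hm hs

theorem natCast_h_ne_zero (h : ℕ) [NeZero h] : (h : ZMod (2 * h)) ≠ 0 := by
  intro h0
  rw [ZMod.natCast_eq_zero_iff] at h0
  have hpos : 0 < h := Nat.pos_of_ne_zero (NeZero.ne h)
  have := Nat.le_of_dvd hpos h0
  omega

theorem partner_injective (h : ℕ) [NeZero h] (w : Fin 2 → ZMod (2 * h))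
    (hw : w 1 = w 0 + (h : ZMod (2 * h))) : Function.Injective w := by
  have hne : w 0 ≠ w 1 := by
    intro h01
    rw [hw] at h01
    exact natCast_h_ne_zero h (by
      have := h01
      exact (add_eq_left.mp this.symm))
  intro i i' hii
  fin_cases i <;> fin_cases i'
  · rfl
  · exact absurd hii hne
  · exact absurd hii.symm hne
  · rfl

theorem card_partner (h : ℕ) [NeZero h] :
    (univ.filter (fun w : Fin 2 → ZMod (2 * h) => w 1 = w 0 + (h : ZMod (2 * h)))).card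
      = 2 * h := by
  have hcard : (univ : Finset (ZMod (2 * h))).card = 2 * h := by
    rw [Finset.card_univ, ZMod.card]
  refine Eq.trans (Finset.card_bij' (t := (univ : Finset (ZMod (2 * h))))
    (fun w _ => w 0) (fun a _ => ![a, a + (h : ZMod (2 * h))])
    (fun _ _ => mem_univ _) ?_ ?_ ?_) hcard
  · intro a _
    rw [mem_filter]
    exact ⟨mem_univ _, rfl⟩
  · intro w hw
    rw [mem_filter] at hw
    exact pair_ext _ _ w rfl hw.2.symm
  · intro a _
    rfl

theorem sum_partner_unif (h : ℕ) [NeZero h] :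
    ∑ w ∈ univ.filter (fun w : Fin 2 → ZMod (2 * h) => w 1 = w 0 + (h : ZMod (2 * h))),
      unifInj h 2 w = 1 / ((2 * h : ℝ) - 1) := by
  have hpos : 0 < h := Nat.pos_of_ne_zero (NeZero.ne h)
  have hval : ∀ w ∈ univ.filter
      (fun w : Fin 2 → ZMod (2 * h) => w 1 = w 0 + (h : ZMod (2 * h))),
      unifInj h 2 w = 1 / ((2 * h : ℝ) * ((2 * h : ℝ) - 1)) := by
    intro w hw
    rw [mem_filter] at hw
    rw [defs_aux_unifInj, if_pos (partner_injective h w hw.2)]
    have hd : ((2 * h).descFactorial 2 : ℝ) = (2 * h : ℝ) * ((2 * h : ℝ) - 1) := by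
      have h1 : (2 * h).descFactorial 2 = (2 * h - 1) * (2 * h) := by
        rw [Nat.descFactorial_succ, Nat.descFactorial_one]
      rw [h1]
      have h2 : ((2 * h - 1 : ℕ) : ℝ) = (2 * h : ℝ) - 1 := by
        rw [Nat.cast_sub (by omega)]
        push_cast
        ring
      rw [Nat.cast_mul, h2]
      push_cast
      ring
    rw [hd]
  rw [Finset.sum_congr rfl hval, Finset.sum_const, card_partner, nsmul_eq_mul]
  have h2h : (2 * h : ℝ) ≠ 0 := by
    have : (0 : ℝ) < h := by exact_mod_cast hpos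
    positivity
  have h2h1 : (2 * h : ℝ) - 1 ≠ 0 := by
    have : (1 : ℝ) ≤ h := by exact_mod_cast hpos
    have : (0 : ℝ) < 2 * h - 1 := by linarith
    exact this.ne'
  push_cast
  field_simp

theorem pp_mix (h j : ℕ) [NeZero h] (u : Fin (j + 2) → ZMod (2 * h)) (hu : u 0 ≠ u 1)
    (s : ℕ) (hs : 6 * Nat.clog 2 (2 * h) ≤ s) :
    |∑ y ∈ univ.filter (fun y : Fin (j + 2) → ZMod (2 * h) => y 1 = y 0 + (h : ZMod (2 * h))),
      (Kmat h (j + 2) ^ s) u y - 1 / ((2 * h : ℝ) - 1)|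
      ≤ 2592 * (Nat.clog 2 (2 * h) : ℝ) ^ 2 / (2 * h : ℝ) ^ 2 := by
  rw [lump_partner, ← sum_partner_unif h, ← Finset.sum_sub_distrib]
  have hx : Function.Injective ![u 0, u 1] := pair_injective _ _ hu
  have hT : 3 * 2 * Nat.clog 2 (2 * h) ≤ s := by omega
  have hk := H63R.kcard_r_all h 2 2 (by norm_num) ![u 0, u 1] hx s hT
  have hlaw : ∀ y, trackedLaw h 2 s ![u 0, u 1] y = (Kmat h 2 ^ s) ![u 0, u 1] y :=
    fun y => H6.law_eq_pow h 2 s ![u 0, u 1] y
  rw [Finset.sum_congr rfl (fun y _ => by rw [hlaw y])] at hk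
  have hbound : ∑ y : Fin 2 → ZMod (2 * h), |(Kmat h 2 ^ s) ![u 0, u 1] y - unifInj h 2 y|
      ≤ 2592 * (Nat.clog 2 (2 * h) : ℝ) ^ 2 / (2 * h : ℝ) ^ 2 := by
    have e : ((2 : ℕ) : ℝ) / 2 * (18 * ((2 : ℕ) : ℝ) * (Nat.clog 2 (2 * h) : ℝ) / (2 * h : ℝ)) ^ 2
        = (1 / 2 : ℝ) * (2592 * (Nat.clog 2 (2 * h) : ℝ) ^ 2 / (2 * h : ℝ) ^ 2) := by
      push_cast
      ring
    rw [e] at hk
    exact le_of_mul_le_mul_left hk (by norm_num)
  refine le_trans (Finset.abs_sum_le_sum_abs _ _) (le_trans ?_ hbound)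
  exact Finset.sum_le_univ_sum_of_nonneg fun y => abs_nonneg _

end Vale.Agent.Lib.P162.H63CV
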