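import Mathlib

/-!
Arithmetic for the explicit range of the many-cards bound: if `r ≥ 40 L / ε` with
`L = ⌈log₂ (2 h)⌉` then `(k / 2) * sqrt (2 h * (1 - ε / 8) ^ r) ≤ 1 / (2 * (2 h))` for every
`k ≤ (1 - ε) * 2 h`.
-/

namespace Vale.Agent.Lib.P162.H63CVA

theorem two_h_le_exp (h : ℕ) : (2 * h : ℝ) ≤ Real.exp (Nat.clog 2 (2 * h) : ℝ) := by
  have h1 : 2 * h ≤ 2 ^ Nat.clog 2 (2 * h) := Nat.le_pow_clog (by norm_num) _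
  have h2 : ((2 * h : ℕ) : ℝ) ≤ ((2 ^ Nat.clog 2 (2 * h) : ℕ) : ℝ) := Nat.cast_le.mpr h1
  have h3 : (2 : ℝ) ≤ Real.exp 1 := by
    have := Real.exp_one_gt_d9
    linarith
  have h4 : (2 : ℝ) ^ Nat.clog 2 (2 * h) ≤ Real.exp 1 ^ Nat.clog 2 (2 * h) :=
    pow_le_pow_left₀ (by norm_num) h3 _
  rw [Real.exp_one_pow] at h4
  push_cast at h2
  linarith

theorem cv_arith (h k r : ℕ) (hh : 1 ≤ h) (ε : ℝ) (hε : 0 < ε) (hε1 : ε ≤ 1)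
    (hk : (k : ℝ) ≤ (1 - ε) * (2 * h : ℝ))
    (hr : 40 * (Nat.clog 2 (2 * h) : ℝ) ≤ ε * r) :
    (k : ℝ) / 2 * Real.sqrt ((2 * h : ℝ) * (1 - ε / 8) ^ r) ≤ 1 / (2 * (2 * h : ℝ)) := by
  have hh' : (1 : ℝ) ≤ h := by exact_mod_cast hh
  have hn : (0 : ℝ) < 2 * h := by linarith
  have hL := two_h_le_exp h
  set L : ℝ := (Nat.clog 2 (2 * h) : ℝ) with hLdef
  have hL0 : 0 ≤ L := Nat.cast_nonneg _
  -- the contraction factor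
  have hb0 : 0 ≤ 1 - ε / 8 := by linarith
  have hb1 : 1 - ε / 8 ≤ Real.exp (-(ε / 8)) := Real.one_sub_le_exp_neg _
  have ha : (1 - ε / 8) ^ r ≤ Real.exp (-(5 * L)) := by
    calc (1 - ε / 8) ^ r ≤ Real.exp (-(ε / 8)) ^ r := pow_le_pow_left₀ hb0 hb1 r
      _ = Real.exp ((r : ℝ) * (-(ε / 8))) := (Real.exp_nat_mul _ r).symm
      _ ≤ Real.exp (-(5 * L)) := by
          apply Real.exp_le_exp.mpr
          nlinarith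
  have hn5 : (2 * h : ℝ) ^ 5 ≤ Real.exp (5 * L) := by
    calc (2 * h : ℝ) ^ 5 ≤ Real.exp L ^ 5 := pow_le_pow_left₀ hn.le hL 5
      _ = Real.exp (((5 : ℕ) : ℝ) * L) := (Real.exp_nat_mul _ 5).symm
      _ = Real.exp (5 * L) := by norm_num
  have ha0 : 0 ≤ (1 - ε / 8) ^ r := pow_nonneg hb0 r
  have hprod : (1 - ε / 8) ^ r * (2 * h : ℝ) ^ 5 ≤ 1 := by
    calc (1 - ε / 8) ^ r * (2 * h : ℝ) ^ 5 ≤ Real.exp (-(5 * L)) * Real.exp (5 * L) :=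
          mul_le_mul ha hn5 (by positivity) (Real.exp_pos _).le
      _ = 1 := by rw [← Real.exp_add]; simp
  have hsq : (2 * h : ℝ) * (1 - ε / 8) ^ r ≤ (1 / (2 * h : ℝ) ^ 2) ^ 2 := by
    have h5 : (0 : ℝ) < (2 * h : ℝ) ^ 4 := by positivity
    rw [show (1 / (2 * h : ℝ) ^ 2) ^ 2 = 1 / (2 * h : ℝ) ^ 4 by ring, le_div_iff₀ h5]
    calc (2 * h : ℝ) * (1 - ε / 8) ^ r * (2 * h : ℝ) ^ 4
        = (1 - ε / 8) ^ r * (2 * h : ℝ) ^ 5 := by ring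
      _ ≤ 1 := hprod
  have hsqrt : Real.sqrt ((2 * h : ℝ) * (1 - ε / 8) ^ r) ≤ 1 / (2 * h : ℝ) ^ 2 := by
    calc Real.sqrt ((2 * h : ℝ) * (1 - ε / 8) ^ r)
        ≤ Real.sqrt ((1 / (2 * h : ℝ) ^ 2) ^ 2) := Real.sqrt_le_sqrt hsq
      _ = 1 / (2 * h : ℝ) ^ 2 := Real.sqrt_sq (by positivity)
  have hk' : (k : ℝ) ≤ 2 * h := by nlinarith
  have hk0 : (0 : ℝ) ≤ k := Nat.cast_nonneg _
  calc (k : ℝ) / 2 * Real.sqrt ((2 * h : ℝ) * (1 - ε / 8) ^ r)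
      ≤ (2 * h : ℝ) / 2 * (1 / (2 * h : ℝ) ^ 2) :=
        mul_le_mul (by linarith) hsqrt (Real.sqrt_nonneg _) (by positivity)
    _ = 1 / (2 * (2 * h : ℝ)) := by
        field_simp

end Vale.Agent.Lib.P162.H63CVA
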