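import Mathlib
import Vale.Agent.Lib.P162.Defs
import Vale.Agent.Lib.P162.Law
import Vale.Agent.Lib.P162.RDefs
import Vale.Agent.Lib.P162.CVDefs
import Vale.Agent.Lib.P162.helper99.QStoch
import Vale.Agent.Lib.P162.helper45.QpowSum
import Vale.Agent.Lib.P162.helper71.QpowSupport
import Vale.Agent.Lib.P162.helper16.CVPsd
import Vale.Agent.Lib.P162.helper43.DefectSq
import Vale.Agent.Lib.P162.helper25.DcolContract
import Vale.Agent.Lib.P162.helper5.CVMerge
import Vale.Agent.Lib.P162.helper34.PartnerReach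
import Vale.Agent.Lib.P162.helper72.Minor
import Vale.Agent.Lib.P162.helper34.CvAll

/-!
Thorp shuffle of `2 * h` cards: assembly of the pool lemmas CV1 to CV11 (two conditionally
independent copies of the new card, Cauchy-Schwarz, Doeblin minorization) into the bound
`cv_all` for `k ≤ (1 - ε) * 2 h` tracked cards after `(7 L + 1) * r` shuffles,
`L = ⌈log₂ (2 h)⌉`, for every `h` with `15776 * L ^ 2 ≤ 2 * h`.
-/

namespace Vale.Agent.Lib.P162.H63CVM

open Finset BigOperators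

theorem Qpow_two_le (h j : ℕ) [NeZero h] (t : ℕ) (p q q' : ZMod (2 * h))
    (w v : Fin j → ZMod (2 * h)) :
    2 * (Qmat h j ^ t) (Fin.cons p (Fin.cons p w)) (Fin.cons q (Fin.cons q' v))
      ≤ (Qmat h j ^ t) (Fin.cons p (Fin.cons p w)) (Fin.cons q (Fin.cons q v))
        + (Qmat h j ^ t) (Fin.cons p (Fin.cons p w)) (Fin.cons q' (Fin.cons q' v)) :=
  H16CV.Qpow_two_le_of h j (fun t p p' q q' w v => H71CV.Qpow_swap h j t p p' q q' w v)
    t p q q' w v

theorem defect_sq_le (h j : ℕ) [NeZero h] (t : ℕ) (p : ZMod (2 * h)) (w : Fin j → ZMod (2 * h))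
    (hz : Function.Injective (Fin.cons p w : Fin (j + 1) → ZMod (2 * h))) :
    (defect h j t (Fin.cons p w)) ^ 2
      ≤ ((2 * h : ℝ) - j) * Dcol h j t (Fin.cons p (Fin.cons p w)) - 1 :=
  H43CV.defect_sq_le_of h j (fun t p q w v => H16CV.diag_cs h j t p q w v)
    (fun t u y => H99CV.Qpow_nonneg h j t u y) t p w hz

theorem Dcol_contract (h j : ℕ) [NeZero h] (B : ℕ) (κ : ℝ) (hκ : 0 ≤ κ)
    (hκm : κ * ((2 * h : ℝ) - j) ≤ 1)
    (hmin : ∀ (v : Fin j → ZMod (2 * h)) (q q' : ZMod (2 * h)), Function.Injective v →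
      (∀ i, q ≠ v i) → (∀ i, q' ≠ v i) → κ ≤ Dcol h j B (Fin.cons q (Fin.cons q' v)))
    (p : ZMod (2 * h)) (w : Fin j → ZMod (2 * h))
    (hz : Function.Injective (Fin.cons p w : Fin (j + 1) → ZMod (2 * h))) (t : ℕ) :
    Dcol h j (t + B) (Fin.cons p (Fin.cons p w))
      ≤ κ + (1 - κ * ((2 * h : ℝ) - j)) * Dcol h j t (Fin.cons p (Fin.cons p w)) :=
  H25CV.Dcol_contract_of h j (fun t u y => H99CV.Qpow_nonneg h j t u y)
    (fun t u => H99CV.Qpow_row_sum h j t u)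
    (fun t q v y => H45CV.Qpow_sum_two h j t q v y)
    (fun t q' v y => H45CV.Qpow_sum_one h j t q' v y)
    (fun t p p' w hz hz' q q' v hne => H71CV.Qpow_support h j t p p' w hz hz' q q' v hne)
    (fun t p q q' w v => Qpow_two_le h j t p q q' w v)
    B κ hκ hκm hmin p w hz t

theorem minor (h j : ℕ) [NeZero h] (hn : 15776 * Nat.clog 2 (2 * h) ^ 2 ≤ 2 * h)
    (v : Fin j → ZMod (2 * h)) (q q' : ZMod (2 * h)) (hv : Function.Injective v)
    (hq : ∀ i, q ≠ v i) (hq' : ∀ i, q' ≠ v i) :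
    1 / (16 * (h : ℝ))
      ≤ Dcol h j (7 * Nat.clog 2 (2 * h) + 1) (Fin.cons q (Fin.cons q' v)) :=
  H72CV.minor_of h j (fun t u y => H99CV.Qpow_nonneg h j t u y)
    (fun t p w hz => defect_sq_le h j t p w hz)
    (fun u y hu hy => H5CV.Q_ge_K h j u y hu hy)
    (fun u hu hp => H5CV.Q_merge h j u hu hp)
    (fun u hu => H34CV.partner_reach h j u hu)
    hn v q q' hv hq hq'

theorem defect_cv (h j : ℕ) [NeZero h] (hn : 15776 * Nat.clog 2 (2 * h) ^ 2 ≤ 2 * h)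
    (z : Fin (j + 1) → ZMod (2 * h)) (hz : Function.Injective z) (r : ℕ) :
    (defect h j ((7 * Nat.clog 2 (2 * h) + 1) * r) z) ^ 2
      ≤ (2 * h : ℝ) * (1 - ((2 * h : ℝ) - j) / (16 * (h : ℝ))) ^ r :=
  H34CV.defect_cv_of h j (fun t u y => H99CV.Qpow_nonneg h j t u y)
    (fun t p w hz => defect_sq_le h j t p w hz)
    (fun B κ hκ hκm hmin p w hz t => Dcol_contract h j B κ hκ hκm hmin p w hz t)
    (fun v q q' hv hq hq' => minor h j hn v q q' hv hq hq')
    z hz r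

/-- Any `k ≤ (1 - ε) * 2 h` tracked cards of a deck of `2 h` cards, `15776 * L ^ 2 ≤ 2 h` with
`L = ⌈log₂ (2 h)⌉`: after `T ≥ (7 L + 1) * r` Thorp shuffles the law of their positions is within
total variation `(k / 2) * sqrt (2 h * (1 - ε / 8) ^ r)` of the uniform law. -/
theorem cv_all (h k r : ℕ) [NeZero h] (ε : ℝ) (hε : 0 < ε) (hε1 : ε ≤ 1)
    (hn : 15776 * Nat.clog 2 (2 * h) ^ 2 ≤ 2 * h)
    (hk : (k : ℝ) ≤ (1 - ε) * (2 * h : ℝ))
    (x : Fin k → ZMod (2 * h)) (hx : Function.Injective x) (T : ℕ)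
    (hT : (7 * Nat.clog 2 (2 * h) + 1) * r ≤ T) :
    (1 / 2 : ℝ) * ∑ y : Fin k → ZMod (2 * h), |trackedLaw h k T x y - unifInj h k y|
      ≤ (k : ℝ) / 2 * Real.sqrt ((2 * h : ℝ) * (1 - ε / 8) ^ r) :=
  H34CV.cv_all_of h (fun j z hz r => defect_cv h j hn z hz r) k r ε hε hε1 hk x hx T hT

end Vale.Agent.Lib.P162.H63CVM
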